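import Crest.Agent.X212.Lwd19.Wd
import Crest.Agent.X212.Line51.Lp0
import Crest.Agent.X212.Lin43.Lin

/-!
# X212 / Lwd19, part Lm (helper19): the model `LMd` of a lens wall is `LOK`
-/

set_option autoImplicit false

namespace Crest.Agent.X212.Lwd19

open Lns95 Line51 Wd38 Nm96

variable {Γ : Nm} {C : Cx Γ} {P : Pm Γ} {κ lam : Type} [Fintype κ] [Fintype lam] [DecidableEq lam]
  {G : Tab C.kd κ} {L : LCx C P.Λ} {e : K3 ⊕ K3 ↪ lam}

/-- **the base data of the lens model** -/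
theorem lmd_lok (hM : MetStmt) (hG : ∀ τ, Gl9.Std C.kd τ (G.g τ).e) (D : LMd P G L e)
    (cut : Bool → An.Cut (C.X D.h.w).mf.M (lam ⊕ lam)) :
    ∃ B b, ∃ K : LOK (⟨_, D.M, D.N, B, b, cut⟩ : G75.LM κ lam) 4, ∀ σ, K.k σ = cond σ (-2) 2 ∧ |K.k σ| = 2 := by
  have i := D.isN
  have q := fun z => D.eq true false (z := z)
  have o := fun σ j => D.sg σ ▸ ls_ord D.h (D.hn σ) D.mem (j := j)
  obtain ⟨x, e, -, -, r⟩ := D.h.ls _ D.mem
  obtain ⟨w, l, _⟩ := D
  subst e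
  refine exists_lok2 (fun j a b => r j (by omega) (by omega)) hG (hV1 _) i hM Lin43.linStmt cut (fun σ => ?_)
    (fun z h => (q z h).1) fun z h => (q z h).2
  simp only [Bs.lo] at o
  rw [(o σ _ (by omega) (by omega)).2, (o σ _ (by omega) (by omega)).1, (o σ _ (by omega) (by omega)).1]
  cases σ <;> simp [lod]

end Crest.Agent.X212.Lwd19
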