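import Crest.Agent.X212.Lns95.Lv
import Crest.Agent.X212.Line51.Nek
import Crest.Agent.X212.Prf9.Main
import Crest.Agent.X212.Rod19.Main

/-!
# X212 / Lwd19, part Rod (helper19): the lens band and its lines on a rod manifold

* `exists_P` : the profile of a band; `TD` : the charts are toric; `NA` : the neck form has the potential `wQ`;
* `exists_LD`, `rel` : toric lines in the two charts; `core` : `LB` and `LL` through a chart.
-/

set_option autoImplicit false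
set_option linter.unusedSectionVars false

open Set Filter Topology Function Matrix
open scoped ContDiff Manifold
open Crest.Agent.R208.F (Ext)
open Crest.Agent.X212.Lns95 Crest.Agent.X212.Line51 Crest.Agent.X212.Dr59 Crest.Agent.X212.Pj41
open Crest.Agent.X212.Rod53 hiding Uni X
open Crest.Agent.X212.Glue52 (dir)
open Crest.Agent.X212.Cyl58 (Up)
open Crest.Agent.X212.Cyf70 (IC)
open Crest.Agent.X212.M (Mf Band)
open Crest.Agent.X212.Orx52 (Pos OX oT)
open Crest.GeometryTopology.DehnSurgery (S3)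

noncomputable section

namespace Crest.Agent.X212.Lwd19

theorem exists_P {n : ℕ} (hn : n ≠ 0) {g : ℝ → ℝ} (hg : Up g univ) {r r' : ℝ} (h0 : 0 < r)
    (hr : range g = Ioo r r') : ∃ P : Prf n, (∀ s x, g s ≤ x → P.f x = 1 ∧ P.f1 x = 0 ∧ P.f2 x = 0) ∧
      ∀ s ∈ Icc (-3 : ℝ) 0, P.H (g s) * deriv g s = 1 := by
  have m := hg.strictMono
  have k : ∀ s, g s ∈ Ioo r r' := fun s => hr ▸ mem_range_self s
  have u := hg.inv isOpen_univ ordConnected_univ
  rw [image_univ, hr] at u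
  obtain ⟨P, h1, h2⟩ := Prf9.prf n r (g (-3)) (g 0) r' (deriv (invFunOn g univ)) (Nat.pos_of_ne_zero hn) h0 (k _).1
    (m (by norm_num)) (k _).2 fun x hx => ⟨(u.contDiffOn.deriv_of_isOpen isOpen_Ioo le_rfl).contDiffAt (isOpen_Ioo.mem_nhds hx), (u x hx).2⟩
  refine ⟨P, fun s x e => h1 x ((k s).1.le.trans e), fun s hs => ?_⟩
  have d := (u.hasDerivAt (k s)).comp s (hg.hasDerivAt (mem_univ s))
  rw [h2 _ ⟨m.monotone hs.1, m.monotone hs.2⟩, ← d.deriv,
    show invFunOn g univ ∘ g = id from funext fun x => m.injective.injOn.leftInvOn_invFunOn (mem_univ x), deriv_id]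

theorem sec_eq {W lam : Type} [TopologicalSpace W] [Fintype lam] {s s' : Matrix lam Unit ℂ} {α β γ : W → Circle} {x : W}
    (h : s * sc α x = s' * sc β x) (e : α x = γ x * β x) : s' = s * sc γ x := by
  rw [← Matrix.mul_one s', ← sc_mul_inv β x, ← Matrix.mul_assoc, ← h, Matrix.mul_assoc, ← sc_mul]
  exact congrArg _ (sc_eq (by simp [e]))

variable {T : Tb (𝓡 3) S3} {v : ℝ → Z2} {a a' b : Z2} {n : ℕ} {o : Rod53.X T v → Ext E4}
  {N U : Set (Rod53.X T v)} {D : Dsc (𝓡 4) o n N} {I : Bool → Set ℝ} {lam : Type} [Fintype lam]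
  {m : ℝ → ℤ} {i i' i'' : ℤ} {p : Rod53.X T v → Matrix lam lam ℂ} {g : Rod53.X T v → Matrix lam Unit ℂ}
  {x : Rod53.X T v}

theorem chi_dual (h : x ∈ off T v) (i j : ℤ) :
    chi T v (dual a a' i j) x = chi T v (dual a a' 1 0) x ^ i * chi T v (dual a a' 0 1) x ^ j := by
  rw [← chi_smul h, ← chi_smul h, ← chi_add h]
  congr 1
  ext <;> simp [dual] <;> ring

/-- the character of the chart `b` -/
def et (a a' : Z2) (n : ℕ) (i i' i'' : ℤ) (b : Bool) : Z2 := dual a a' (cond b (n * i' - i'') i) i'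

/-- the character of the fibre coordinate of the chart `b` -/
def ze (a a' : Z2) (n : ℕ) (b : Bool) : Z2 := dual a a' (cond b n 0) 1

variable (D) in
/-- the charts are toric -/
structure TD (a a' : Z2) (I : Bool → Set ℝ) : Prop where
  tor : N ⊆ T.tor v
  tm : ∀ b, ∀ x ∈ D.O b, x ∉ off T v → T.time v x ∈ I b
  ov : ∀ x ∈ N, x ∈ off T v → ∀ b, x ∈ D.O b
  ch : ∀ x ∈ N, x ∈ off T v → (∀ b, D.u b x ≠ 0 ∧ D.w b x ≠ 0) ∧
    dir (D.u false x) = chi T v (dual a a' 1 0) x ∧ dir (D.w false x) = chi T v (dual a a' 0 1) x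

theorem sub (b : Bool) : D.O b ⊆ N := fun y hy => (D.cov y).2 ⟨b, hy⟩

theorem TD.dw (h : TD D a a' I) {b : Bool} (hx : x ∈ D.O b) (k : x ∈ off T v) :
    dir (D.w b x) = chi T v (ze a a' n b) x := by
  obtain ⟨c1, c2, c3⟩ := h.ch x (sub b hx) k
  rw [ze, chi_dual k, ← c2, ← c3, zpow_one]
  cases b
  · simp
  · rw [D.tw x ⟨h.ov x (sub _ hx) k _, hx⟩, dir_mul_circle (c1 false).2, mul_comm]
    simp

variable {E H : Type} [NormedAddCommGroup E] [NormedSpace ℝ E] [FiniteDimensional ℝ E] [TopologicalSpace H]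
  {J : ModelWithCorners ℝ E H} [J.Boundaryless] {Y : Type} [TopologicalSpace Y] [ChartedSpace H Y]
  [IsManifold J ∞ Y] {f : Y × ℝ → Rod53.X T v} {nA : Y × ℝ → Ext (E × ℝ)} {cv : S3' → Y} {γ : ℝ → ℝ}

variable (J f) in
/-- in the frame `s` the neck form has the potential `w` -/
def NA (s : Y × ℝ → Matrix lam Unit ℂ) (nA : Y × ℝ → Ext (E × ℝ)) (w : ℝ × ℝ) : Prop :=
  ∀ q : Y × ℝ, q.2 ∈ Ioo (-3 : ℝ) 0 → f q ∈ off T v →
    th (IC J) s q + nA q = pm (IC J) (𝓡 4) f (tp T v fun _ => w) q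

theorem w_ne (hB : D.Band f cv γ) {b : Bool} {q : Y × ℝ} (hq : f q ∈ D.O b) : D.w b (f q) ≠ 0 := fun e => by
  simpa [e] using (hB.pos q.2).trans_le (hB.hi b q hq)

theorem dense_f (hf : ∀ q, IsLocalDiffeomorphAt (IC J) (𝓡 4) ∞ f q) : Dense (f ⁻¹' off T v) :=
  fun q => cl_of_ld (hf q) (dense_off _)

theorem tp_eq (hb : b = (n : ℤ) • a' - a) (d1 : dt a a' = 1) (hn : n ≠ 0) (ht : x ∈ T.tor v) (k : x ∈ off T v)
    (c : Bool) : tp T v (fun _ => wQ a b i i'') x = (ang (𝓡 4) (chi T v (et a a' n i i' i'' c)) +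
      (((i + i'' - n * i' : ℤ) : ℝ) / n) • ang (𝓡 4) (chi T v (ze a a' n c))) x := by
  have n0 : (n : ℝ) ≠ 0 := by exact_mod_cast hn
  have e : dt a b = n := by
    rw [hb]
    simp only [dt] at d1 ⊢
    simp
    linear_combination n * d1
  rw [Pi.add_apply, Pi.smul_apply, ang_chi ht k, ang_chi (η := ze _ _ _ _) ht k, tp, wQ, e, hb]
  simp only [et, ze, dual, d1]
  cases c <;> simp only [cond] <;> match_scalars <;> simp <;> field_simp <;> ring

/-- **a toric line in the two charts** -/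
theorem exists_LD (h : TD D a a' I) (hB : D.Band f cv γ) (hb : b = (n : ℤ) • a' - a) (d1 : dt a a' = 1) (hn : n ≠ 0)
    (hf : ∀ q, IsLocalDiffeomorphAt (IC J) (𝓡 4) ∞ f q) (hp : TL T v m p g N)
    (hr : ∀ c, ∀ t ∈ I c, Rep v m (et a a' n i i' i'' c) t) (hA : Sm (IC J) (univ ×ˢ Ioo (-3) 0) nA)
    (hN : NA J f (fun q => g (f q)) nA (wQ a b i i'')) : ∃ S : LD J D p (i + i'' - n * i') f nA,
      ∀ c, ∀ x ∈ D.O c, x ∈ off T v → S.s c x * sc (chi T v (et a a' n i i' i'' c)) x = g x := by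
  choose s h1 h2 using fun c => (hp.mono (sub c)).exists_fr (D.ch c).op
    (tl_chi (η := et a a' n i i' i'' c) ((sub c).trans h.tor) fun x hx k => hr c _ (h.tm c x hx k))
  refine ⟨⟨s, h1, fun y hy => ?_, fun c q hq hc => ?_⟩, h2⟩
  · refine eq_of_dense dense_off ((h1 _).sm y hy.2).continuousAt (((h1 _).sm y hy.1).mul
      (msm_sc (cm_zpow (cm_dir ((D.ch _).su y hy.1) (D.ne _ y hy)) _))).continuousAt ?_
    filter_upwards [((D.ch false).op.inter (D.ch true).op).mem_nhds hy] with z hz k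
    refine sec_eq ((h2 _ z hz.1 k).trans (h2 _ z hz.2 k).symm) ?_
    rw [et, et, chi_dual k, chi_dual k (cond _ _ _), (h.ch z (sub _ hz.1) k).2.1, ← mul_assoc, ← _root_.zpow_add]
    simp
  · have cf := fun q => (hf q).contMDiffAt
    have o : IsOpen (f ⁻¹' D.O c) := (D.ch c).op.preimage (continuous_iff_continuousAt.2 fun q => (cf q).continuousAt)
    have o' : IsOpen (f ⁻¹' off T v) := isOpen_off.preimage (continuous_iff_continuousAt.2 fun q => (cf q).continuousAt)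
    refine form_eq_of_dense (I := IC J) (dense_f hf) (a := th (IC J) (fun q => s c (f q)) + nA)
      (b := (((i + i'' - n * i' : ℤ) : ℝ) / n) • ang (IC J) fun q => dir (D.w c (f q)))
      (((smAt_th (((h1 c).sm _ hc).comp (cf q))).add (hA q ⟨trivial, hq⟩)).of_le (by simp))
      (((smAt_ang (cm_dir (((D.ch c).sw _ hc).comp q (cf q)) (w_ne hB hc))).smul _).of_le (by simp)) ?_
    filter_upwards [o.mem_nhds hc, (isOpen_Ioo.preimage continuous_snd).mem_nhds hq] with z z1 z2 k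
    have t := h.tor (sub c z1)
    have e := hN z z2 k
    have md := (cf z).mdifferentiableAt (by simp)
    rw [pm_congr_right (tp_eq (i' := i') hb d1 hn t k c), pm_add, pm_smul, Pi.add_apply, Pi.smul_apply,
      pm_ang (csm_off t k) md, pm_ang (csm_off t k) md,
      th_congr (u' := fun q => s c (f q) * sc (chi T v (et a a' n i i' i'' c) ∘ f) q)
        (eventually_of_mem ((o.inter o').mem_nhds ⟨z1, k⟩) fun y hy => (h2 c _ hy.1 hy.2).symm),
      th_trans (msm_sc ((csm_off t k).comp z (cf z))) (((h1 c).sm _ z1).comp (cf z)) (piso_sc _ _) ((h1 c).iso _ z1),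
      add_right_comm, add_comm] at e
    rw [Pi.add_apply, Pi.smul_apply, ang_congr (h := chi T v (ze a a' n c) ∘ f)
      (eventually_of_mem ((o.inter o').mem_nhds ⟨z1, k⟩) fun y hy => h.dw hy.1 hy.2)]
    exact add_left_cancel e

/-- two lines with the same section on the half band -/
theorem rel (h : TD D a a' I) (hB : D.Band f cv γ) (hf : ∀ q, IsLocalDiffeomorphAt (IC J) (𝓡 4) ∞ f q)
    {s s' g g' : Rod53.X T v → Matrix lam Unit ℂ} {c : Bool} {j j' : ℤ} (h1 : ∀ x ∈ D.O c, MSm (𝓡 4) s x)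
    (h1' : ∀ x ∈ D.O c, MSm (𝓡 4) s' x)
    (h2 : ∀ x ∈ D.O c, x ∈ off T v → s x * sc (chi T v (et a a' n i j i'' c)) x = g x)
    (h2' : ∀ x ∈ D.O c, x ∈ off T v → s' x * sc (chi T v (et a a' n i j' i'' c)) x = g' x)
    (e : ∀ q : Y × ℝ, q.2 < 0 → f q ∈ off T v → g' (f q) = g (f q)) {q : Y × ℝ} (hq : q.2 < 0) (hc : f q ∈ D.O c) :
    s' (f q) = s (f q) * sc (fun y => dir (D.w c y) ^ (j - j')) (f q) := by
  have cf := fun q => (hf q).contMDiffAt.continuousAt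
  refine eq_of_dense (dense_f hf) (f := fun q => s' (f q))
    (g := fun q => s (f q) * sc (fun y => dir (D.w c y) ^ (j - j')) (f q))
    ((h1' _ hc).continuousAt.comp (cf q)) (((h1 _ hc).mul
      (msm_sc (cm_zpow (cm_dir ((D.ch c).sw _ hc) (w_ne hB hc)) _))).continuousAt.comp (cf q)) ?_
  filter_upwards [(cf q).eventually ((D.ch c).op.mem_nhds hc), (isOpen_Iio.preimage continuous_snd).mem_nhds hq]
    with z z1 z2 k
  refine sec_eq ((h2 _ z1 k).trans ((e z z2 k).symm.trans (h2' _ z1 k).symm)) ?_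
  rw [h.dw z1 k, ← chi_smul k, ← chi_add k]
  congr 1
  cases c <;> ext <;> simp [et, ze, dual] <;> ring

variable {c l r r' : ℝ} {ρ : ℝ → ℝ} {X : Mf 4} {oX : X.M → Ext X.E} {B : Band X} {κ : Type} [Fintype κ]
  {e : κ → Met55.VF B.Y.I B.Y.M}

/-- the times of the two charts -/
def IJ (c l R : ℝ) (b : Bool) : Set ℝ := cond b (Ioo (c - l) (c + R)) (Ioo (c - R) (c + l))

/-- **the lens band and its lines through a chart** -/
theorem core (h : LH a b) (hb : b = (n : ℤ) • a' - a) (d1 : dt a a' = 1) (hn : n ≠ 0) (A : Tb.Arc v a b c ρ)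
    (hm : StrictMono ρ) (l0 : 0 < l) (lr : l < r) (hr : range ρ = Ioo r r')
    (j1 : ∀ x, c - ρ 0 < x → x < c + l → x ∈ Jv v a a' (c - l))
    (j2 : ∀ x, c - l < x → x < c + ρ 0 → x ∈ Jv v a' b (c + l)) {oN} (hO : OX T v oN o)
    (hT : Pos IT (𝓡 3) T.τ {z | z.2 ≠ 0} oT oN) (φ : PartialDiffeomorph (𝓡 4) X.I (Rod53.X T v) X.M ∞)
    {f : B.Y.M × ℝ → Rod53.X T v} {cv : S3' → B.Y.M} (ld : IsLocalDiffeomorph (𝓡 3) B.Y.I ∞ cv) (sj : Surjective cv)
    (rc : RC B.Y.I cv e) (hf : ∀ y s, f (cv y, s) = T.lb v h c ρ (cov h y, s))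
    (hj : ∀ q, f q ∈ φ.source ∧ B.j q = φ (f q)) (src : T.disc v c (Iio (ρ 0)) ⊆ φ.source)
    (sd : B.wall.sd false = φ '' T.disc v c (Iio (ρ 0))) (po : Pos (𝓡 4) X.I φ (T.disc v c (Iio (ρ 0))) (-o) oX) :
    ∃ L : LB X oX n B e, ∀ (lam : Type) [Fintype lam] (p : Bool → X.M → Matrix lam lam ℂ)
      (g : Bool → X.M → Matrix lam Unit ℂ) (m : Bool → ℝ → ℤ) (i i'' : ℤ) (i' : Bool → ℤ) nA,
      (∀ σ, TL T v (m σ) (fun x => p σ (φ x)) (fun x => g σ (φ x)) (T.disc v c (Iio (ρ 0)))) →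
      (∀ σ s, ∀ t ∈ IJ c l (ρ 0) s, Rep v (m σ) (et a a' n i (i' σ) i'' s) t) →
      Sm (IC B.Y.I) (univ ×ˢ Ioo (-3) 0) nA → (∀ σ, NA B.Y.I f (fun q => g σ (B.j q)) nA (wQ a b i i'')) →
      (∀ q : B.Y.M × ℝ, q.2 < 0 → f q ∈ off T v → g true (B.j q) = g false (B.j q)) →
      ∃ S : LL L p (fun σ => i + i'' - n * i' σ) nA, S.i = i' false - i' true := by
  subst hb
  have k : ∀ s, ρ s ∈ Ioo r r' := fun s => hr ▸ mem_range_self s
  obtain ⟨D, d2, d3, d4, d5⟩ := Rod19.rodStmt T v a a' n c l ρ h oN o d1 A hm l0 (fun s => lr.trans (k s).1) j1 j2 hO hT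
  obtain ⟨P, p1, p2⟩ := exists_P hn d2.up (sub_pos.2 lr) (r' := r' - l) (by
    rw [← image_sub_const_Ioo, ← hr, ← range_comp]; rfl)
  borelize (E4) (Rod53.X T v)
  have ej : B.j = φ ∘ f := funext fun q => (hj q).2
  have li : ∀ q, φ.symm (B.j q) = f q := fun q => (hj q).2 ▸ φ.left_inv (hj q).1
  have lf : ∀ q, IsLocalDiffeomorphAt (IC B.Y.I) (𝓡 4) ∞ f q := fun q => funext li ▸
    (B.oe.loc q).comp _ _ (Met55.pd_ld' ((hj q).2 ▸ φ.map_source (hj q).1))
  have mo : ∀ s q, B.j q ∈ φ '' D.O s ↔ f q ∈ D.O s := fun s q =>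
    (hj q).2 ▸ φ.injOn.mem_image_iff ((sub s).trans src) (hj q).1
  have bf : D.Band f cv fun s => ρ s - l := ⟨d2.up, d2.pos, fun s y t ht e => hf y t ▸ d2.eq s y t ht e,
    fun s x hx e => d2.lo s x hx (by
      rintro ⟨⟨y, t⟩, u, rfl⟩
      obtain ⟨y, rfl⟩ := cov_surj h y
      exact e ⟨(cv y, t), ⟨trivial, u.2⟩, hf y t⟩), fun s ⟨y, t⟩ => by
      obtain ⟨y, rfl⟩ := sj y
      exact hf y t ▸ d2.hi s (cov h y, t)⟩
  have td : TD D a a' (IJ c l (ρ 0)) := ⟨fun _ hx => hx.1, fun s x hx o => by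
      have u := abs_lt.1 ((T.abs_time_le c x).trans_lt (sub s hx).2)
      cases s
      · exact ⟨by linarith [u.1], ((d3 x).1 hx).2.resolve_left o⟩
      · exact ⟨((d4 x).1 hx).2.resolve_left o, by linarith [u.2]⟩,
    fun x hx o s => by cases s; exacts [(d3 x).2 ⟨hx, .inl o⟩, (d4 x).2 ⟨hx, .inl o⟩], d5⟩
  let D' := D.push φ src (Int54.SameOn.symm po)
  let L : LB X oX n B e := ⟨⟨D'.O, D'.u, D'.w, D'.ch, fun y => (Set.ext_iff.1 sd y).trans (D'.cov y), D'.ne, D'.nrm, D'.du, D'.tw⟩, cv,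
    fun s => ρ s - l, P, hn, ld, sj, rc, ⟨d2.up, d2.pos, fun s y t ht e => by
      have u := bf.eq s y t ht e
      exact ⟨(mo s _).2 u.1, (congrArg (D.u s) (li _)).trans u.2.1, (congrArg (D.w s) (li _)).trans u.2.2⟩,
      fun s x hx e => bf.lo s _ (D.pre φ src hx).1 fun ⟨q, u, w⟩ =>
        e ⟨q, u, (hj q).2.trans ((congrArg φ w).trans (φ.right_inv (D.pre φ src hx).2))⟩,
      fun s q hq => (bf.hi s q ((mo s q).1 hq)).trans_eq (congrArg (fun z => ‖D.w s z‖ ^ 2) (li q).symm)⟩, p1, p2⟩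
  refine ⟨L, fun lam _ p g m i i'' i' nA t1 t2 t3 t4 t5 => ?_⟩
  choose S hS using fun σ => exists_LD td bf rfl d1 hn lf (t1 σ) (t2 σ) t3 (by simpa only [ej, Function.comp_apply] using t4 σ)
  refine ⟨⟨fun σ => ⟨fun s z => (S σ).s s (φ.symm z), fun s => (((S σ).uni s).comp (f := φ.symm)
    ⟨fun z hz => (Met55.pd_ld' (D.pre φ src hz).2).contMDiffAt, fun z hz => (D.pre φ src hz).1⟩).congr_p
      (fun _ _ => rfl) fun z hz => congrArg (p σ) (φ.right_inv (D.pre φ src hz).2).symm,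
    fun z hz => (S σ).tr _ ⟨(D.pre φ src hz.1).1, (D.pre φ src hz.2).1⟩, fun s q hq hs => ?_⟩,
    i' false - i' true, by ring, fun s q hq hs => ?_⟩, rfl⟩
  · change _ = _ • ang _ (fun q => dir (D.w s (φ.symm (B.j q)))) q
    simp only [li]
    exact (S σ).band s q hq ((mo s q).1 hs)
  · change (S true).s s (φ.symm (B.j q)) = (S false).s s (φ.symm (B.j q)) *
      sc (fun y => dir (D.w s y) ^ (i' false - i' true)) (φ.symm (B.j q))
    rw [li]
    exact rel td bf lf ((S false).uni s).sm ((S true).uni s).sm (hS false s) (hS true s)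
      (fun q a b => (hj q).2 ▸ t5 q a b) hq ((mo s q).1 hs)

end Crest.Agent.X212.Lwd19
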