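import Crest.Agent.X212.Lwd19.Rod
import Crest.Agent.X212.Lns95.Wld
import Crest.Agent.X212.Line51.Wd3
import Crest.Agent.X212.Gl9.Tab

/-!
# X212 / Lwd19, part Wd (helper19): the lens band and its lines in a word

* `na_of_mk` : the neck form of a marked lens arc; `exists_ll` : `LB` and `LL` for the arc `lA x (x + 3)`;
* `exists_lok`, `exists_lok2` : the model of a lens wall is `LOK`.
-/

set_option autoImplicit false
set_option linter.unusedSectionVars false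

open Set Filter Topology Function Matrix
open scoped ContDiff Manifold
open Crest.Agent.R208.F (Ext)
open Crest.Agent.X212.Lns95 Crest.Agent.X212.Line51 Crest.Agent.X212.Dr59 Crest.Agent.X212.Pj41
  Crest.Agent.X212.Wd38
open Crest.Agent.X212.Rod53 hiding Uni X
open Crest.Agent.X212.Cyl58 (TP)
open Crest.Agent.X212.Cyf70 (IC)
open Crest.Agent.X212.M (Mf Band ML V4)
open Crest.Agent.X212.Nm96 (lrd)
open Crest.GeometryTopology.DehnSurgery (S3)

noncomputable section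

namespace Crest.Agent.X212.Lwd19

section neck

variable {T : Tb (𝓡 3) S3} {v : ℝ → Z2} {a b : Z2} {c : ℝ} {ρ : ℝ → ℝ} (h : LH a b) (A : Tb.Arc v a b c ρ)
  {κ lam : Type} [Fintype κ] [Fintype lam]
include A

theorem pm_chi (η : Z2) {q : Lens h × ℝ} (k : T.lb v h c ρ q ∈ off T v) :
    pm (IC (𝓡 3)) (𝓡 4) (l0 h ∘ Prod.fst) (ang (𝓡 4) (chi torT _ η)) q =
      pm (IC (𝓡 3)) (𝓡 4) (T.lb v h c ρ) (ang (𝓡 4) (chi T v η)) q := by
  have oe := T.isOE_lb h A
  rw [pm_ang (φ := l0 h ∘ Prod.fst) (csm_off (tor_torT _ _) ((pre_lb h A).le k))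
      ((((cm_l0 h).comp contMDiff_fst) q).mdifferentiableAt (by simp)),
    pm_ang (csm_off ((T.image_lb h A univ).le ⟨q, ⟨trivial, trivial⟩, rfl⟩).1 k)
      ((oe.contMDiff q).mdifferentiableAt (by simp))]
  exact ang_congr (eventually_of_mem ((isOpen_off.preimage oe.contMDiff.continuous).mem_nhds k) fun _ => chi_lb h A)

theorem na_of_mk {i j : ℤ} {p : Lens h × ℝ → Matrix κ κ ℂ} {s : Lens h × ℝ → Matrix κ Unit ℂ} {m}
    (hs : Uni (IC (𝓡 3)) (fun _ => 1) p s (T.lb v h c ρ ⁻¹' off T v)) (M : (secL h i j).Mk (𝓡 3) p s m univ)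
    {V : Matrix lam K3 ℂ} (hV : Vᴴ * V = 1) :
    NA (𝓡 3) (T.lb v h c ρ) s (fun q => th (IC (𝓡 3)) (fun q => V * m q) q +
      pm (IC (𝓡 3)) (𝓡 3) Prod.fst (secL h i j).L.a q) (wQ a b i j) := fun q _ k => by
  have d : q.1 ∈ (secL h i j).D := (pre_lb h A).le k
  have F := (secL_spec h i j).2.2
  have e := th_trans (hs.sm q k) (M.sm q trivial) (hs.iso q k) (M.iso q trivial)
  rw [th_congr (eventually_of_mem ((ok_secL h i j).op'.mem_nhds d) fun z => M.eq z trivial),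
    ← pm_th (F.sm _ ⟨trivial, d⟩) mdifferentiableAt_fst] at e
  beta_reduce
  rw [th_const_mul V (M.sm q trivial) (by rw [hV, Matrix.one_mul]), ← add_assoc, add_comm (th _ s q), ← e,
    ← Pi.add_apply (pm _ _ _ _), ← pm_add, pm_congr_right (F.par _ ⟨trivial, d⟩), triv,
    pm_comp ((cm_l0 h _).mdifferentiableAt (by simp)) mdifferentiableAt_fst]
  simp only [tp, pm_apply, map_add, map_smul]
  exact congrArg₂ (_ • · + _ • ·) (pm_chi h A _ k) (pm_chi h A _ k)

end neck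

variable {Γ : Nm} {C : Cx Γ} {Λ : NmL Γ} {w : Shp Γ} {L : LCx C Λ} {hw : w.OK} {X : TP V4} {R : Rz C hw X}
  {κ lam : Type} [Fintype κ] [Fintype lam] {G : Tab C.kd κ} {x : ℤ} {k : Γ.ι}
  (hr : ∀ j, x ≤ j → j ≤ x + 3 → w.s j = .rod (k, lrd x j))

theorem lrd_le {j : ℤ} (h : j ≤ x) : lrd x j = (1, 2) := if_pos h

theorem lrd_mid {j : ℤ} (h : x < j) (h' : j ≤ x + 2) : lrd x j = (0, 1) := (if_neg h.not_ge).trans (if_pos h')

theorem lrd_ge {j : ℤ} (h : x + 2 < j) : lrd x j = (-1, 2) := (if_neg (by omega)).trans (if_neg h.not_ge)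

include hr in
theorem bw_lrd : w.bw x (x + 3) = lrd x := funext fun j => by
  rcases le_or_gt j x with h | h
  · rw [Shp.bw_le h, hr x le_rfl (by omega), lrd_le h, lrd_le le_rfl]; rfl
  rcases le_or_gt j (x + 3) with h' | h'
  · rw [Shp.bw_mid h h', hr j h.le h']; rfl
  · rw [Shp.bw_ge (by omega) h'.le, hr _ (by omega) le_rfl, lrd_ge (by omega), lrd_ge (by omega)]; rfl

theorem jv1 {t : ℝ} (h : (x : ℝ) < t) (h' : t < x + 3) : t ∈ Jv (wd (lrd x)) (1, 2) (0, 1) (x + 1) := by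
  rcases le_or_gt t (x + 1) with e | e
  · have := Ioo_subset_Jv (a := lrd x) (i := x + 1) (by
      rw [lrd_le (by omega), lrd_mid (by omega) (by omega)]; exact .inl rfl)
      (show t ∈ _ from ⟨by push_cast; linarith, by push_cast; linarith⟩)
    rwa [lrd_le (by omega), lrd_mid (by omega) (by omega), Int.cast_add, Int.cast_one] at this
  · exact Jv.of_right (Ioo_subset_Jr' (i := x + 1) (j := x + 2) (fun k a b => lrd_mid (by omega) b ▸ PM.refl _)
      ⟨by push_cast; linarith, by push_cast; linarith⟩) e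

theorem jv2 {t : ℝ} (h : (x : ℝ) + 1 < t) (h' : t < x + 4) : t ∈ Jv (wd (lrd x)) (0, 1) (-1, 2) (x + 3) := by
  rcases lt_or_ge t (x + 3) with e | e
  · exact Jv.of_left (Ioo_subset_Jr' (i := x + 1) (j := x + 2) (fun k a b => lrd_mid (by omega) b ▸ PM.refl _)
      ⟨by push_cast; linarith, by push_cast; linarith⟩) e
  · have := Ioo_subset_Jv (a := lrd x) (i := x + 3) (by
      rw [lrd_mid (by omega) (by omega), lrd_ge (by omega)]; exact .inl rfl)
      (show t ∈ _ from ⟨by push_cast; linarith, by push_cast; linarith⟩)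
    rwa [lrd_mid (by omega) (by omega), lrd_ge (by omega), Int.cast_add, Int.cast_ofNat] at this

theorem bn_in {n : Wt} (hn : n.OK w Λ) (h : w.Rg x (x + 3)) (hr : w.bw x (x + 3) = lrd x) :
    n.bn x (x + 3) (x + 2) = n.bn x (x + 3) (x + 1) := by
  have := h.lo
  have := h.hi
  have e := hn.eq (x + 2) (by omega) (by omega) (by
    rw [Shp.lf, Shp.rt, ← h.bw_r (by omega) (by omega), ← Shp.bw_mid (x := x) (y := x + 3) (by omega) (by omega), hr,
      lrd_mid (by omega) (by omega), lrd_mid (by omega) le_rfl])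
  rw [bn_mid (by omega) (by omega), ← e, bn_r hn h (by omega) (by omega)]
  congr 1
  ring

theorem rep_lrd {m : ℤ → ℤ} (h2 : m (x + 2) = m (x + 1)) (s : Bool) {t : ℝ} (ht : t ∈ IJ (x + 2) 1 (3 / 2) s) :
    Rep (wd (lrd x)) (wm (lrd x) m) (et (1, 2) (0, 1) 4 (m x) (m (x + 1)) (m (x + 3)) s) t := by
  have k : ∀ j, x < j → j ≤ x + 2 → m j = m (x + 1) := fun j a b => by
    obtain rfl | rfl : j = x + 1 ∨ j = x + 2 := by omega
    exacts [rfl, h2]
  cases s
  · refine rep_wd (i := x) (j := x + 2) (fun j a b => ?_) ⟨by linarith [ht.1], by push_cast; linarith [ht.2]⟩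
    rcases a.eq_or_lt with rfl | a
    · rw [lrd_le le_rfl]; simp [et, dual, dot, dt]
    · rw [lrd_mid a b, k j a b]; simp [et, dual, dot, dt]
  · refine rep_wd (i := x + 1) (j := x + 3) (fun j a b => ?_)
      ⟨by push_cast; linarith [ht.1], by push_cast; linarith [ht.2]⟩
    rcases b.eq_or_lt with rfl | b
    · rw [lrd_ge (by omega)]; simp [et, dual, dot, dt]; ring
    · rw [lrd_mid a (by omega), k j a (by omega)]; simp [et, dual, dot, dt]

variable (hG : ∀ τ, Gl9.Std C.kd τ (G.g τ).e) {hW : ∀ _ : Unit, (Bs.lA x (x + 3)).OK w} {n : Bool → Wt}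
  {W : ∀ σ, WL L R (n σ) lam} {V : Matrix lam K3 ℂ} (hV : Vᴴ * V = 1)
  {N : Bool → ML (R.mark G (fun _ => ⟨.lA x (x + 3), []⟩) hW) lam} (hN : ∀ σ, IsN V (W σ) (N σ))
  (h1 : (n true).nr x = (n false).nr x) (h2 : (n true).nl (x + 3) = (n false).nl (x + 3))
  (hp : EqOn (W true).p (W false).p (R.bd (.lA x (x + 3)))) (hg : EqOn (W true).g (W false).g (R.bd (.lA x (x + 3))))
include hr hG hV hN h1 h2 hp hg

/-- **the lens band and its two lines** -/
theorem exists_ll : (N true).nA () = (N false).nA () ∧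
    ∃ B : LB X.mf (-R.O) 4 (R.bn ⟨.lA x (x + 3), []⟩ (hW ())) (G.g ((Bs.lA x (x + 3)).ty w)).e,
      Nonempty (LL B (fun σ => (N σ).p) (fun σ => (n false).nr x + (n false).nl (x + 3) - (4 : ℕ) * (n σ).nl (x + 1))
        ((N false).nA ())) := by
  have h := (hW ()).1
  have bw := bw_lrd hr
  have e := lz_eq ⟨h.prl hw, h.prr hw, (hW ()).2⟩
  have A : Tb.Arc (w.v x (x + 3)) (lz (w.s x).r.2 (w.s (x + 3)).l.2).1.1 (lz (w.s x).r.2 (w.s (x + 3)).l.2).1.2
      (cc x (x + 3)) (Bs.lA x (x + 3)).ρ := by rw [e]; exact h.arc hw rfl (PM.refl _) (PM.refl _)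
  have H := (lz (w.s x).r.2 (w.s (x + 3)).l.2).2
  have e1 := (congrArg Prod.fst e).trans ((congrArg (·.r.2) (hr x le_rfl (by omega))).trans (lrd_le le_rfl))
  have e2 := (congrArg Prod.snd e).trans ((congrArg (·.l.2) (hr (x + 3) (by omega) le_rfl)).trans (lrd_ge (by omega)))
  have v := (h.v_eq hw).trans (congrArg wd bw)
  have c : cc x (x + 3) = x + 2 := by unfold cc; push_cast; ring
  have r : (Bs.lA x (x + 3)).r0 = 3 / 2 := by unfold Bs.r0; push_cast; ring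
  have r0 := (Bs.ρ_zero _).trans r
  have tm := an_tm (b := .lA x (x + 3)) rfl ((C.T _).lA H A (Bs.ρ_mono _))
  have lt : ∀ s ∈ Iio ((Bs.lA x (x + 3)).ρ 0), s < (((x + 3 : ℤ) : ℝ) - x) / 2 + 1 / 4 := fun s a => by
    push_cast; linarith [mem_Iio.1 a]
  have ds := fun p (a : p ∈ (C.T _).disc (w.v x (x + 3)) _ _) => C.tm_disc a lt
  obtain ⟨B, hB⟩ := core (X := X.mf) (a' := (0, 1)) (n := 4) (l := 1) (B := R.bn ⟨.lA x (x + 3), []⟩ (hW ())) H
    (by rw [e1, e2]; rfl) (by rw [e1]; rfl) (by simp) A (Bs.ρ_mono _) one_pos (by linarith) (Bs.range_ρ _)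
    (fun t a b => by
      rw [e1, v, c, show (x : ℝ) + 2 - 1 = x + 1 by ring]
      exact jv1 (by linarith) (by linarith))
    (fun t a b => by
      rw [e2, v, c, show (x : ℝ) + 2 + 1 = x + 3 by ring]
      exact jv2 (by linarith) (by linarith)) (C.ok_spec rfl) (Orx52.pos_τ _ _) (R.B h).φ (ld_cov _) (cov_surj _)
    (hG (.lens _ _)) (fun _ _ => rfl) (fun q => ⟨(R.B h).mem_src (tm q), rfl⟩) (fun p a => (R.B h).mem_src (ds p a))
    (Set.ext fun z => (R.bn_sd ⟨.lA x (x + 3), []⟩ (hW ())).trans (Set.ext_iff.1 ((R.spec_nk _ (hW ())).f.trans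
      (Bs.ρ_zero _ ▸ R.D_eq h lt)) z)) ((R.O_spec.B h).neg.mono ds)
  choose m M hm using fun σ => (hN σ).m ()
  have s1 : ∀ σ z, sg L R (n σ) (W σ).g x z = (W σ).g z := fun _ _ =>
    sg_one (LCx.nu_one (.inl ⟨_, hr x le_rfl (by omega)⟩))
  have fr := fun σ => ((W σ).tl h).fr.comp (J := IC (𝓡 3)) (f := (C.T _).lb _ H _ (Bs.lA x (x + 3)).ρ)
    (W := _ ⁻¹' off _ _) ⟨fun q _ => ((C.T _).isOE_lb H A).contMDiff q, fun q a => ⟨tm q, a⟩⟩
  have o : ∀ σ, o2 w (n σ) (.lA x (x + 3)) = ((n false).nr x, (n false).nl (x + 3)) := by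
    rintro (_ | _)
    exacts [rfl, Prod.ext h1 h2]
  have M' : ∀ σ, (secL H ((n false).nr x) ((n false).nl (x + 3))).Mk (𝓡 3) _ _ (m σ) univ := fun σ => by
    have := M σ
    change Sec.Mk _ (L.SC _ _ (o2 _ _ _)) _ _ _ _ at this
    rw [o] at this
    exact this
  have nA : ∀ σ, (N σ).nA () = fun q : Lens H × ℝ => th (IC (𝓡 3)) (fun q : Lens H × ℝ => V * m σ q) q +
      pm (IC (𝓡 3)) (𝓡 3) Prod.fst (secL H ((n false).nr x) ((n false).nl (x + 3))).L.a q := fun σ => funext fun q => by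
    rw [ML.nA, hm, (hN σ).LY]
    exact congrArg (fun o : ℤ × ℤ => th (IC (𝓡 3)) (fun q : Lens H × ℝ => V * m σ q) q +
      pm (IC (𝓡 3)) (𝓡 3) Prod.fst (secL H o.1 o.2).L.a q) (o σ)
  have bd := nk_bd (R := R) (hW ())
  have eg := fun q => (s1 _ _).trans ((hg (bd q)).trans (s1 _ _).symm)
  have em : m true = m false := funext fun q => (M' true).unique isOpen_univ (fun q _ => (ok_secL _ _ _).dn' q)
    (((M' false).congr_p (fun q _ => hp (bd q)) fun _ _ => rfl).congr fun q _ _ => ⟨eg q, rfl⟩) (fun q _ a => (fr true).iso q ((pre_lb H A).ge a)) trivial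
  have eA : (N true).nA () = (N false).nA () := by rw [nA, nA, em]
  refine ⟨eA, B, ?_⟩
  obtain ⟨S, -⟩ := hB lam (fun σ => (N σ).p) (fun σ => sg L R (n σ) (W σ).g x) (fun σ => wz w (n σ) x (x + 3))
    ((n false).nr x) ((n false).nl (x + 3)) (fun σ => (n σ).nl (x + 1)) ((N false).nA ())
    (fun σ => by simp only [(hN σ).p]; exact ((W σ).tl h).mono ds)
    (fun σ s t a => by
      have := rep_lrd (bn_in (W σ).ok h bw) s (c ▸ r0 ▸ a)
      rw [bn_le le_rfl, bn_mid (by omega) (by omega), bn_ge h.lt le_rfl, show (n σ).nr x = _ from congrArg Prod.fst (o σ),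
        show (n σ).nl (x + 3) = _ from congrArg Prod.snd (o σ)] at this
      rwa [e1, v, wz, h.bz_eq hw, bw])
    ((((N false).um ()).mono fun _ h => (abs_lt.2 ⟨h.2.1, h.2.2.trans three_pos⟩).le).sm_th.add
      (((N false).okY ()).sa.pm ⟨fun _ _ => contMDiffAt_fst, mapsTo_univ _ _⟩))
    (fun σ => by
      rw [show (N false).nA () = (N σ).nA () by cases σ; exacts [rfl, eA.symm], nA]
      exact na_of_mk H A (fr σ) (M' σ) hV)
    fun q _ _ => eg q
  exact ⟨S⟩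

/-- **the model of a lens wall** -/
theorem exists_lok [DecidableEq lam] (hM : MetStmt) (hL : LinStmt) (cut : Bool → An.Cut X.mf.M (lam ⊕ lam)) :
    ∃ B b, ∃ K : LOK (⟨X.mf, _, N, B, b, cut⟩ : G75.LM κ lam) 4,
      ∀ σ, K.k σ = (n false).nr x + (n false).nl (x + 3) - 4 * (n σ).nl (x + 1) :=
  let ⟨e, B, ⟨S⟩⟩ := exists_ll hr hG hV hN h1 h2 hp hg
  let ⟨B, b, K, k, _⟩ := Lns95.exists_lok hM hL _ N cut B nofun S e
  ⟨B, b, K, congrFun k⟩

omit hr hG hV hN h1 h2 hp hg in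
theorem bd_hf {b : Bs} {hW : ∀ _ : Unit, b.OK w} (s : Bool) :
    R.bd b ⊆ G75.hf (R.mark G (fun _ => ⟨b, []⟩) hW) () s :=
  fun z hz => .inr ((R.range_bn ⟨b, []⟩ (hW ())).ge ⟨z, hz, rfl⟩)

omit h1 h2 hp hg in
/-- the orders `(1, 0 or 1, 1)` -/
theorem exists_lok2 [DecidableEq lam] (hM : MetStmt) (hL : LinStmt) (cut : Bool → An.Cut X.mf.M (lam ⊕ lam))
    (ho : ∀ σ, (n σ).nr x = 1 ∧ (n σ).nl (x + 3) = 1 ∧ (n σ).nl (x + 1) = cond σ 1 0)
    (hp : EqOn (W true).p (W false).p (G75.hf (R.mark G (fun _ => ⟨.lA x (x + 3), []⟩) hW) () true))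
    (hg : EqOn (W true).g (W false).g (G75.hf (R.mark G (fun _ => ⟨.lA x (x + 3), []⟩) hW) () true)) :
    ∃ B b, ∃ K : LOK (⟨X.mf, _, N, B, b, cut⟩ : G75.LM κ lam) 4, ∀ σ, K.k σ = cond σ (-2) 2 ∧ |K.k σ| = 2 := by
  obtain ⟨B, b, K, e⟩ := exists_lok hr hG hV hN ((ho _).1.trans (ho _).1.symm) ((ho _).2.1.trans (ho _).2.1.symm)
    (hp.mono (bd_hf _)) (hg.mono (bd_hf _)) hM hL cut
  refine ⟨B, b, K, fun σ => ?_⟩
  rw [e, (ho _).1, (ho _).2.1, (ho _).2.2]
  cases σ <;> exact ⟨rfl, rfl⟩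

end Crest.Agent.X212.Lwd19
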